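import Mathlib
import Vale.Agent.Lib.P194.H86.CentralKrull

/-!
# P194 : direct finiteness passes up central extensions whose kernel has no `p'`-torsion

`R` a ring of prime characteristic `p`, `G` a group, `Z` a subgroup of central elements of `G`
without nontrivial elements of finite order prime to `p` (for example any torsion-free central
subgroup, such as an infinite cyclic or free abelian one, or a central `p`-torsion subgroup).
If `R[G ⧸ Z]` is directly finite then so is `R[G]`, and the same holds for the rings of `n × n`
matrices (so stable finiteness passes from `R[G ⧸ Z]` to `R[G]`).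
-/

namespace Vale.Agent.Results.P194.S86_CentralExtensionUp

universe u v

theorem result :
    ∀ (R : Type u) [Ring R] (p : ℕ) [Fact p.Prime] [CharP R p] (G : Type v) [Group G]
      (Z : Subgroup G) [Z.Normal],
      (∀ z ∈ Z, ∀ g : G, z * g = g * z) →
      (∀ z ∈ Z, ∀ m : ℕ, 0 < m → ¬ p ∣ m → z ^ m = 1 → z = 1) →
      ((∀ a b : MonoidAlgebra R (G ⧸ Z), a * b = 1 → b * a = 1) →
        ∀ a b : MonoidAlgebra R G, a * b = 1 → b * a = 1) ∧
      (∀ n : ℕ,
        (∀ A B : Matrix (Fin n) (Fin n) (MonoidAlgebra R (G ⧸ Z)), A * B = 1 → B * A = 1) →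
        ∀ A B : Matrix (Fin n) (Fin n) (MonoidAlgebra R G), A * B = 1 → B * A = 1) :=
  fun _ _ p _ _ _ _ Z _ hcent htor =>
    ⟨Vale.Agent.Lib.P194.H86.central_noPrime_up p Z hcent htor,
      fun n => Vale.Agent.Lib.P194.H86.central_noPrime_up_matrix p Z hcent htor n⟩

end Vale.Agent.Results.P194.S86_CentralExtensionUp
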