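import Mathlib
import Vale.Agent.Lib.P194.H86.CentralP

/-!
# P194 : central `p`-torsion subgroups do not matter for direct finiteness in characteristic `p`

`R` a ring of prime characteristic `p`, `G` a group, `Z` a subgroup of `G` all of whose elements
are central in `G` and of `p`-power order.  Then `R[G]` is directly finite if and only if
`R[G ⧸ Z]` is, and the same holds for the rings of `n × n` matrices over them (so `R[G]` is stably
finite if and only if `R[G ⧸ Z]` is).  The kernel of `R[G] → R[G ⧸ Z]` is a nil ideal.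
-/

namespace Vale.Agent.Results.P194.S86_CentralPExtension

universe u v

theorem result :
    ∀ (R : Type u) [Ring R] (p : ℕ) [Fact p.Prime] [CharP R p] (G : Type v) [Group G]
      (Z : Subgroup G) [Z.Normal],
      (∀ z ∈ Z, ∀ g : G, z * g = g * z) →
      (∀ z ∈ Z, ∃ k : ℕ, z ^ (p ^ k) = 1) →
      ((∀ a b : MonoidAlgebra R G, a * b = 1 → b * a = 1) ↔
        (∀ a b : MonoidAlgebra R (G ⧸ Z), a * b = 1 → b * a = 1)) ∧
      (∀ n : ℕ,
        (∀ A B : Matrix (Fin n) (Fin n) (MonoidAlgebra R G), A * B = 1 → B * A = 1) ↔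
        (∀ A B : Matrix (Fin n) (Fin n) (MonoidAlgebra R (G ⧸ Z)), A * B = 1 → B * A = 1)) :=
  fun _ _ p _ _ _ _ Z _ hcent hpow =>
    ⟨Vale.Agent.Lib.P194.H86.central_p_iff p Z hcent hpow,
      fun n => Vale.Agent.Lib.P194.H86.central_p_iff_matrix p Z hcent hpow n⟩

end Vale.Agent.Results.P194.S86_CentralPExtension
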