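import Mathlib
import Vale.Agent.Lib.P194.H65.ResPMain

/-!
# P194 : direct finiteness passes up extensions with residually-`p` kernel

`R` a ring of prime characteristic `p`, `G` a group, `N` a normal subgroup of `G` that is
residually a finite `p`-group: every nontrivial element of `N` lies outside some normal subgroup
of `N` of `p`-power index (for example `N` free of any rank, finitely generated torsion-free
nilpotent, or a finite `p`-group; `N` need not be central, abelian or finitely generated).
If `R[G ⧸ N]` is directly finite then so is `R[G]`, and the same holds for the rings of `n × n`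
matrices (so stable finiteness passes from `R[G ⧸ N]` to `R[G]`).
-/

namespace Vale.Agent.Results.P194.S86_ResiduallyPKernel

universe u v

theorem result :
    ∀ (R : Type u) [Ring R] (p : ℕ) [Fact p.Prime] [CharP R p] (G : Type v) [Group G]
      (N : Subgroup G) [N.Normal],
      (∀ x : N, x ≠ 1 → ∃ K : Subgroup N, K.Normal ∧ (∃ k : ℕ, K.index = p ^ k) ∧ x ∉ K) →
      ((∀ a b : MonoidAlgebra R (G ⧸ N), a * b = 1 → b * a = 1) →
        ∀ a b : MonoidAlgebra R G, a * b = 1 → b * a = 1) ∧
      (∀ n : ℕ,
        (∀ A B : Matrix (Fin n) (Fin n) (MonoidAlgebra R (G ⧸ N)), A * B = 1 → B * A = 1) →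
        ∀ A B : Matrix (Fin n) (Fin n) (MonoidAlgebra R G), A * B = 1 → B * A = 1) :=
  fun _ _ p _ _ _ _ N _ hres =>
    ⟨Vale.Agent.Lib.P194.H65.resP_up p N hres,
      fun n => Vale.Agent.Lib.P194.H65.resP_up_matrix p N hres n⟩

end Vale.Agent.Results.P194.S86_ResiduallyPKernel
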