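import Mathlib
import Vale.Agent.Lib.P194.H86.TwoTop
import Vale.Agent.Lib.P194.H86.TwoTopHeight

/-!
# P194 : one-sided inverses of group algebra elements with at most two top terms are two-sided

Two criteria on a single element `a` of a group algebra, valid for every group `G`.

* Part 1: `K` a division ring with a valuation `val`, `ψ` a monoid homomorphism from `G` to the
  value group with zero; the weight of the term of `a` at `g` is `val (a.coeff g) * ψ g`.  If every
  term of `a` outside `{g₁, g₂}` has weight strictly smaller than the weight at `g₁`, and `g₁ = g₂`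
  or `g₁⁻¹ * g₂` has infinite order, then `a * b = 1` and `b * a = 1` are equivalent.
* Part 2: `R` any ring, `φ : G → ℝ` additive.  If the coefficient of `a` at `g₁` is a unit, every
  nonzero term of `a` outside `{g₁, g₂}` has height `φ` strictly smaller than `φ g₁`,
  `φ g₂ ≤ φ g₁`, and `g₁ = g₂` or `g₁⁻¹ * g₂` has infinite order, then `a * b = 1` and
  `b * a = 1` are equivalent.
-/

namespace Vale.Agent.Results.P194.S86_TwoTopTerms

universe u v w

theorem result :
    (∀ (K : Type u) [DivisionRing K] (G : Type v) [Group G]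
        (Γ₀ : Type w) [LinearOrderedCommGroupWithZero Γ₀]
        (val : Valuation K Γ₀) (ψ : G →* Γ₀) (a b : MonoidAlgebra K G) (g₁ g₂ : G),
        (∀ g : G, g ≠ g₁ → g ≠ g₂ → val (a.coeff g) * ψ g < val (a.coeff g₁) * ψ g₁) →
        (g₁ = g₂ ∨ ∀ n : ℕ, 0 < n → (g₁⁻¹ * g₂) ^ n ≠ 1) →
        (a * b = 1 → b * a = 1) ∧ (b * a = 1 → a * b = 1)) ∧
    (∀ (R : Type u) [Ring R] (G : Type v) [Group G] (φ : G → ℝ),
        (∀ g h : G, φ (g * h) = φ g + φ h) →
        ∀ (a b : MonoidAlgebra R G) (g₁ g₂ : G), IsUnit (a.coeff g₁) →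
        (∀ g : G, g ≠ g₁ → g ≠ g₂ → a.coeff g ≠ 0 → φ g < φ g₁) →
        φ g₂ ≤ φ g₁ →
        (g₁ = g₂ ∨ ∀ n : ℕ, 0 < n → (g₁⁻¹ * g₂) ^ n ≠ 1) →
        (a * b = 1 → b * a = 1) ∧ (b * a = 1 → a * b = 1)) :=
  ⟨fun _ _ _ _ _ _ val ψ a b g₁ g₂ hdom hord =>
      Vale.Agent.Lib.P194.H86.two_top_terms val ψ a b g₁ g₂ hdom hord,
    fun _ _ _ _ φ hφ a b g₁ g₂ hunit hdom hg2 hord =>
      Vale.Agent.Lib.P194.H86.two_top_terms_height φ hφ a b g₁ g₂ hunit hdom hg2 hord⟩

end Vale.Agent.Results.P194.S86_TwoTopTerms
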